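import Mathlib
import Vale.Agent.Lib.P252B.Defs
import Vale.Agent.Lib.P252B.Derive

open Set Matrix
open scoped ContDiff

namespace Vale.Agent.Results.P252.BernsteinFails

open Vale.Agent.P252B

private theorem expand {n : ℕ} (x : EuclideanSpace ℝ (Fin n)) :
    x = ∑ i, x i • EuclideanSpace.single i (1 : ℝ) := by
  have h := (EuclideanSpace.basisFun (Fin n) ℝ).sum_repr x
  simp only [EuclideanSpace.basisFun_repr, EuclideanSpace.basisFun_apply] at h
  exact h.symm

theorem result (n : ℕ) (hn : 10 ≤ n) :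
    (¬ ∀ (Ω : Set (EuclideanSpace ℝ (Fin n))) (u : EuclideanSpace ℝ (Fin n) → ℝ),
        IsOpen Ω → Convex ℝ Ω → Ω.Nonempty → ContDiffOn ℝ ∞ u Ω →
        (∀ x ∈ Ω, (D2 u x).PosDef) → (∀ x ∈ Ω, MaximalAt u x) → GraphComplete Ω u →
        Ω = univ ∧ ∃ (A : Matrix (Fin n) (Fin n) ℝ) (b : Fin n → ℝ) (c : ℝ), A.PosDef ∧
          ∀ x, u x = 1 / 2 * (x.ofLp ⬝ᵥ A *ᵥ x.ofLp) + b ⬝ᵥ x.ofLp + c) ∧
    (¬ ∀ u : EuclideanSpace ℝ (Fin n) → ℝ,
        ContDiff ℝ ∞ u → (∀ x, (D2 u x).PosDef) → (∀ x, MaximalAt u x) →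
        ∃ (Q : QuadraticForm ℝ (EuclideanSpace ℝ (Fin n)))
          (l : EuclideanSpace ℝ (Fin n) →ₗ[ℝ] ℝ) (c : ℝ), ∀ x, u x = Q x + l x + c) := by
  obtain ⟨u, hu, hpd, hAM, hgc, hq⟩ := exists_second n hn
  constructor
  · intro h
    obtain ⟨-, A, b, c, -, hx⟩ := h univ u isOpen_univ convex_univ univ_nonempty
      hu.contDiffOn (fun x _ => hpd x) (fun x _ => hAM x) hgc
    refine hq ⟨A, b, c, fun x => ?_⟩
    rw [hx x]
    have h1 : x.ofLp ⬝ᵥ A *ᵥ x.ofLp = ∑ i, ∑ j, A i j * x i * x j := by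
      simp only [dotProduct, mulVec, Finset.mul_sum]
      refine Finset.sum_congr rfl fun i _ => Finset.sum_congr rfl fun j _ => ?_
      ring
    rw [h1]
    simp only [dotProduct]
    ring
  · intro h
    obtain ⟨Q, l, c, hx⟩ := h u hu hpd hAM
    refine hq ⟨Matrix.of fun i j => 2 * QuadraticMap.associated (R := ℝ) Q
      (EuclideanSpace.single i (1 : ℝ)) (EuclideanSpace.single j (1 : ℝ)),
      fun i => l (EuclideanSpace.single i (1 : ℝ)), c, fun x => ?_⟩
    rw [hx x]
    have h1 : Q x = ∑ i, ∑ j, x i * x j * QuadraticMap.associated (R := ℝ) Q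
        (EuclideanSpace.single i (1 : ℝ)) (EuclideanSpace.single j (1 : ℝ)) := by
      rw [← QuadraticMap.associated_eq_self_apply ℝ Q x]
      conv_lhs => rw [expand x]
      simp only [map_sum, LinearMap.sum_apply, map_smul, LinearMap.smul_apply, smul_eq_mul,
        Finset.mul_sum]
      rw [Finset.sum_comm]
      refine Finset.sum_congr rfl fun i _ => Finset.sum_congr rfl fun j _ => ?_
      ring
    have h2 : l x = ∑ i, l (EuclideanSpace.single i (1 : ℝ)) * x i := by
      conv_lhs => rw [expand x]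
      simp only [map_sum, map_smul, smul_eq_mul]
      refine Finset.sum_congr rfl fun i _ => ?_
      ring
    rw [h1, h2]
    congr 2
    rw [Finset.sum_div]
    refine Finset.sum_congr rfl fun i _ => ?_
    rw [Finset.sum_div]
    refine Finset.sum_congr rfl fun j _ => ?_
    simp only [Matrix.of_apply]
    ring

end Vale.Agent.Results.P252.BernsteinFails
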