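import Mathlib
import Vale.Agent.Lib.P252.Defs
import Vale.Agent.Lib.P252.Final

/-!
# P252, third encoding

Functions of `n` real variables are functions on `Fin n → ℝ`, and all derivatives are iterated
partial derivatives.
-/

open scoped ContDiff

namespace Vale.Agent.Results.P252.CounterexampleAM

/-- The partial derivative `∂f/∂xᵢ` of a function `f` of the real variables `x₁, …, xₙ`. -/
noncomputable def partialDeriv {n : ℕ} (i : Fin n) (f : (Fin n → ℝ) → ℝ) : (Fin n → ℝ) → ℝ :=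
  fun x => lineDeriv ℝ f x (Pi.single i 1)

/-- The Hessian matrix `D²u(x) = (∂²u/∂xᵢ∂xⱼ (x))ᵢⱼ`. -/
noncomputable def hessianMatrix {n : ℕ} (u : (Fin n → ℝ) → ℝ) (x : Fin n → ℝ) :
    Matrix (Fin n) (Fin n) ℝ :=
  Matrix.of fun i j => partialDeriv j (partialDeriv i u) x

/-- The function `w = (det D²u)^(-(n+1)/(n+2))`. -/
noncomputable def w {n : ℕ} (u : (Fin n → ℝ) → ℝ) (x : Fin n → ℝ) : ℝ :=
  (hessianMatrix u x).det ^ (-((n : ℝ) + 1) / ((n : ℝ) + 2))

/-- The left hand side `∑ U^{ij} ∂ᵢⱼ w` of the affine maximal equation (AM), with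
`U^{ij} = det(D²u) (D²u)⁻¹ᵢⱼ`. -/
noncomputable def affineMaximalOperator {n : ℕ} (u : (Fin n → ℝ) → ℝ) (x : Fin n → ℝ) : ℝ :=
  ∑ i, ∑ j, (hessianMatrix u x).det * (hessianMatrix u x)⁻¹ i j *
    partialDeriv j (partialDeriv i (w u)) x

/-! ### transfer -/

/-- the function on coordinates -/
def co {n : ℕ} (f : EuclideanSpace ℝ (Fin n) → ℝ) (y : Fin n → ℝ) : ℝ := f (WithLp.toLp 2 y)

theorem partialDeriv_co {n : ℕ} {f : EuclideanSpace ℝ (Fin n) → ℝ} (hf : Differentiable ℝ f)
    (i : Fin n) : partialDeriv i (co f) =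
      co (fun x => fderiv ℝ f x (EuclideanSpace.single i (1 : ℝ))) := by
  funext y
  have h1 := (hf (WithLp.toLp 2 y)).lineDeriv_eq_fderiv (v := EuclideanSpace.single i (1 : ℝ))
  change lineDeriv ℝ (co f) y (Pi.single i 1) =
    fderiv ℝ f (WithLp.toLp 2 y) (EuclideanSpace.single i (1 : ℝ))
  rw [← h1]
  rfl

theorem partialDeriv2_co {n : ℕ} {f : EuclideanSpace ℝ (Fin n) → ℝ} (hf : ContDiff ℝ ∞ f)
    (i j : Fin n) (y : Fin n → ℝ) : partialDeriv j (partialDeriv i (co f)) y =
      Vale.Agent.P252.hessian f (WithLp.toLp 2 y) i j := by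
  have h1 : Differentiable ℝ f := hf.differentiable (by norm_num)
  have h2 : Differentiable ℝ (fun x => fderiv ℝ f x (EuclideanSpace.single i (1 : ℝ))) := by
    have h3 : ContDiff ℝ ∞ (fun x => fderiv ℝ f x (EuclideanSpace.single i (1 : ℝ))) :=
      (hf.fderiv_right (m := ∞) (by norm_cast)).clm_apply contDiff_const
    exact h3.differentiable (by norm_num)
  rw [partialDeriv_co h1, partialDeriv_co h2]
  rfl

/-- a quadratic function -/
def IsQuad {n : ℕ} (f : (Fin n → ℝ) → ℝ) : Prop :=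
  ∃ (A : Matrix (Fin n) (Fin n) ℝ) (b : Fin n → ℝ) (c : ℝ),
    ∀ x, f x = (∑ i, ∑ j, A i j * x i * x j) / 2 + ∑ i, b i * x i + c

theorem IsQuad.zero {n : ℕ} : IsQuad (fun _ : Fin n → ℝ => 0) :=
  ⟨0, 0, 0, fun x => by simp⟩

theorem IsQuad.add {n : ℕ} {f g : (Fin n → ℝ) → ℝ} (hf : IsQuad f) (hg : IsQuad g) :
    IsQuad (fun x => f x + g x) := by
  obtain ⟨A, b, c, h⟩ := hf
  obtain ⟨A', b', c', h'⟩ := hg
  refine ⟨A + A', b + b', c + c', fun x => ?_⟩
  beta_reduce
  rw [h, h']
  simp only [Matrix.add_apply, Pi.add_apply, add_mul, Finset.sum_add_distrib]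
  ring

theorem IsQuad.smul {n : ℕ} {f : (Fin n → ℝ) → ℝ} (hf : IsQuad f) (r : ℝ) :
    IsQuad (fun x => r * f x) := by
  obtain ⟨A, b, c, h⟩ := hf
  refine ⟨r • A, r • b, r * c, fun x => ?_⟩
  beta_reduce
  rw [h]
  simp only [Matrix.smul_apply, Pi.smul_apply, smul_eq_mul, mul_assoc, ← Finset.mul_sum]
  ring

theorem IsQuad.sum {n : ℕ} {ι : Type*} (s : Finset ι) (f : ι → (Fin n → ℝ) → ℝ)
    (h : ∀ i ∈ s, IsQuad (f i)) : IsQuad (fun x => ∑ i ∈ s, f i x) := by
  classical
  induction s using Finset.induction_on with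
  | empty => simpa using IsQuad.zero
  | insert a s ha ih =>
    simp only [Finset.sum_insert ha]
    exact (h a (Finset.mem_insert_self a s)).add
      (ih fun i hi => h i (Finset.mem_insert_of_mem hi))

theorem isQuad_one {n : ℕ} : IsQuad (fun _ : Fin n → ℝ => 1) :=
  ⟨0, 0, 1, fun x => by simp⟩

theorem isQuad_coord {n : ℕ} (i : Fin n) : IsQuad (fun x : Fin n → ℝ => x i) :=
  ⟨0, Pi.single i 1, 0, fun x => by simp [Pi.single_apply]⟩

theorem isQuad_mul {n : ℕ} (i j : Fin n) : IsQuad (fun x : Fin n → ℝ => x i * x j) := by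
  refine ⟨Matrix.of fun k l => if k = i ∧ l = j then 2 else 0, 0, 0, fun x => ?_⟩
  have : ∑ k, ∑ l, (Matrix.of fun k l : Fin n => if k = i ∧ l = j then (2 : ℝ) else 0) k l *
      x k * x l = 2 * x i * x j := by
    rw [Finset.sum_eq_single i, Finset.sum_eq_single j]
    · simp
    · intro l _ hl
      simp [hl]
    · simp
    · intro k _ hk
      refine Finset.sum_eq_zero fun l _ => ?_
      simp [hk]
    · simp
  rw [this]
  simp
  ring

theorem isQuad_monomial {n : ℕ} (d : Fin n →₀ ℕ) (hd : (d.sum fun _ e => e) ≤ 2) :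
    IsQuad (fun x : Fin n → ℝ => ∏ i, x i ^ d i) := by
  have hcard : Multiset.card (Finsupp.toMultiset d) ≤ 2 := by
    rw [Finsupp.card_toMultiset]
    exact hd
  have hprod : ∀ x : Fin n → ℝ, ∏ i, x i ^ d i = ((Finsupp.toMultiset d).map x).prod := by
    intro x
    rw [Finsupp.toMultiset_map, Finsupp.prod_toMultiset]
    rw [Finsupp.prod_mapDomain_index (fun _ => pow_zero _) (fun _ _ _ => pow_add _ _ _)]
    rw [Finsupp.prod_fintype _ _ (fun i => pow_zero _)]
  have h0 : Multiset.card (Finsupp.toMultiset d) = 0 ∨ Multiset.card (Finsupp.toMultiset d) = 1 ∨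
      Multiset.card (Finsupp.toMultiset d) = 2 := by omega
  simp_rw [hprod]
  rcases h0 with h | h | h
  · rw [Multiset.card_eq_zero] at h
    rw [h]
    simpa using isQuad_one
  · obtain ⟨i, hi⟩ := Multiset.card_eq_one.1 h
    rw [hi]
    simpa using isQuad_coord i
  · obtain ⟨i, j, hij⟩ := Multiset.card_eq_two.1 h
    rw [hij]
    simpa using isQuad_mul i j

theorem isQuad_eval {n : ℕ} (P : MvPolynomial (Fin n) ℝ) (hP : P.totalDegree ≤ 2) :
    IsQuad (fun x => MvPolynomial.eval x P) := by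
  simp only [MvPolynomial.eval_eq']
  refine IsQuad.sum _ _ fun d hd => IsQuad.smul (isQuad_monomial d ?_) _
  exact (MvPolynomial.le_totalDegree hd).trans hP

/-- **The affine Bernstein property fails in every dimension `n ≥ 10`**: there is a smooth function
`u` on the whole space with positive definite Hessian everywhere, which solves the affine maximal
equation everywhere and is not a polynomial of degree at most two. -/
theorem result (n : ℕ) (hn : 10 ≤ n) :
    ∃ u : (Fin n → ℝ) → ℝ, ContDiff ℝ ∞ u ∧ (∀ x, (hessianMatrix u x).PosDef) ∧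
      (∀ x, affineMaximalOperator u x = 0) ∧
      ¬ ∃ P : MvPolynomial (Fin n) ℝ, P.totalDegree ≤ 2 ∧ ∀ x, u x = MvPolynomial.eval x P := by
  obtain ⟨k, rfl⟩ : ∃ k, n = k + 1 := ⟨n - 1, by omega⟩
  obtain ⟨u, hu, hpd, hAM, hq⟩ := Vale.Agent.P252.exists_entire k (by omega)
  have hH : ∀ y, hessianMatrix (co u) y = Vale.Agent.P252.hessian u (WithLp.toLp 2 y) := by
    intro y
    ext i j
    exact partialDeriv2_co hu i j y
  have hcd : ∀ i j, ContDiff ℝ ∞ fun x => Vale.Agent.P252.hessian u x i j := by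
    intro i j
    have h2 : ContDiff ℝ ∞ (fun y => fderiv ℝ u y (EuclideanSpace.single i (1 : ℝ))) :=
      (hu.fderiv_right (m := ∞) (by norm_cast)).clm_apply contDiff_const
    exact (h2.fderiv_right (m := ∞) (by norm_cast)).clm_apply contDiff_const
  have hdet : ContDiff ℝ ∞ fun x => (Vale.Agent.P252.hessian u x).det := by
    simp only [Matrix.det_apply]
    refine ContDiff.sum fun σ _ => ?_
    refine ContDiff.const_smul _ ?_
    exact contDiff_prod fun i _ => hcd _ _
  have hw : ContDiff ℝ ∞ (Vale.Agent.P252.wFun u) :=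
    ContDiff.rpow_const_of_ne hdet fun x => (hpd x).det_pos.ne'
  have hwe : w (co u) = co (Vale.Agent.P252.wFun u) := by
    funext y
    change (hessianMatrix (co u) y).det ^ _ = (Vale.Agent.P252.hessian u (WithLp.toLp 2 y)).det ^ _
    rw [hH, neg_div]
  refine ⟨co u, ?_, fun y => ?_, fun y => ?_, ?_⟩
  · exact hu.comp (PiLp.contDiff_toLp)
  · rw [hH]
    exact hpd _
  · have h := hAM (WithLp.toLp 2 y)
    unfold affineMaximalOperator
    rw [hwe, hH, ← h]
    refine Finset.sum_congr rfl fun i _ => Finset.sum_congr rfl fun j _ => ?_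
    rw [partialDeriv2_co hw]
    unfold Vale.Agent.P252.cofactorMatrix
    rw [Matrix.smul_apply, smul_eq_mul]
  · rintro ⟨P, hP, hPe⟩
    obtain ⟨A, b, c, h⟩ := isQuad_eval P hP
    refine hq ⟨A, b, c, fun x => ?_⟩
    exact (hPe x.ofLp).trans (h x.ofLp)

end Vale.Agent.Results.P252.CounterexampleAM
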