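import Mathlib
import Vale.Agent.Lib.P252.Defs
import Vale.Agent.Lib.P252.Final

open scoped ContDiff

namespace Vale.Agent.Results.P252.EntireNonquadratic

open Vale.Agent.P252

theorem result (n : ℕ) (hn : 10 ≤ n) :
    ∃ u : EuclideanSpace ℝ (Fin n) → ℝ,
      ContDiff ℝ ∞ u ∧
      (∀ x, (hessian u x).PosDef) ∧
      SolvesAM u ∧
      ¬ ∃ (A : Matrix (Fin n) (Fin n) ℝ) (b : Fin n → ℝ) (c : ℝ),
          ∀ x, u x = (∑ i, ∑ j, A i j * x i * x j) / 2 + ∑ i, b i * x i + c := by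
  obtain ⟨k, rfl⟩ : ∃ k, n = k + 1 := ⟨n - 1, by omega⟩
  exact exists_entire k (by omega)

end Vale.Agent.Results.P252.EntireNonquadratic
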